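import Mathlib

/-!
# P052, TASK GEOM: the metric endgame for the 63-dimensional Borsuk configuration

321 points in `ℝ^63` with a prescribed Gram matrix (two inner-product values off the diagonal,
given by a graph with no 6-clique) yield, after rescaling the last point, a finite set that
cannot be split into 64 parts of smaller diameter.
-/

namespace Vale.Agent.H19

open Finset

theorem borsuk_fails_of_config (A : Fin 321 → Fin 321 → Bool)
    (y : Fin 321 → EuclideanSpace ℝ (Fin 63))
    (hdiag : ∀ u : Fin 321, u.val < 320 → inner ℝ (y u) (y u) = 15)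
    (hlast : ∀ u : Fin 321, u.val = 320 → inner ℝ (y u) (y u) = 13)
    (hoff : ∀ u v : Fin 321, u ≠ v → inner ℝ (y u) (y v) = (if A u v = true then 3 else -1))
    (hclique : ∀ s : Finset (Fin 321), (∀ u ∈ s, ∀ v ∈ s, u ≠ v → A u v = true) → s.card ≤ 5) :
    ∃ X : Finset (EuclideanSpace ℝ (Fin 63)),
      0 < Metric.diam (↑X : Set (EuclideanSpace ℝ (Fin 63))) ∧
      ∀ f : EuclideanSpace ℝ (Fin 63) → Fin 64, ∃ x ∈ X, ∃ y ∈ X, f x = f y ∧
        dist x y = Metric.diam (↑X : Set (EuclideanSpace ℝ (Fin 63))) := by
  classical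
  -- the scaling factor of the last point
  obtain ⟨α, hα0, hα2⟩ : ∃ α : ℝ, 0 < α ∧ 13 * α ^ 2 + 2 * α = 17 := by
    have hs : Real.sqrt 222 ^ 2 = 222 := Real.sq_sqrt (by norm_num)
    have hs1 : 1 < Real.sqrt 222 := by
      rw [Real.lt_sqrt (by norm_num)]
      norm_num
    refine ⟨(Real.sqrt 222 - 1) / 13, div_pos (by linarith) (by norm_num), ?_⟩
    field_simp
    nlinarith
  -- the rescaled configuration
  set c : Fin 321 → ℝ := fun u => if u.val < 320 then 1 else α with hc
  set z : Fin 321 → EuclideanSpace ℝ (Fin 63) := fun u => c u • y u with hz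
  have hinner : ∀ u v, inner ℝ (z u) (z v) = c u * c v * inner ℝ (y u) (y v) := by
    intro u v
    simp only [hz, real_inner_smul_left, real_inner_smul_right]
    ring
  have hdist : ∀ u v, dist (z u) (z v) ^ 2 =
      c u * c u * inner ℝ (y u) (y u) - 2 * (c u * c v * inner ℝ (y u) (y v))
        + c v * c v * inner ℝ (y v) (y v) := by
    intro u v
    rw [dist_eq_norm, norm_sub_sq_real, ← real_inner_self_eq_norm_sq, ← real_inner_self_eq_norm_sq,
      hinner, hinner, hinner]
  have hsq : ∀ u v, u ≠ v → dist (z u) (z v) ^ 2 ≤ 32 ∧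
      (A u v = false → dist (z u) (z v) ^ 2 = 32) := by
    intro u v huv
    rw [hdist, hoff u v huv]
    by_cases hu : u.val < 320 <;> by_cases hv : v.val < 320
    · simp only [hc, hu, hv, if_true, hdiag u hu, hdiag v hv]
      cases A u v <;> simp <;> norm_num
    · have hv' : v.val = 320 := by omega
      simp only [hc, hu, hv, if_true, if_false, hdiag u hu, hlast v hv']
      cases A u v <;> simp <;> first | nlinarith | (constructor <;> nlinarith)
    · have hu' : u.val = 320 := by omega
      simp only [hc, hu, hv, if_true, if_false, hlast u hu', hdiag v hv]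
      cases A u v <;> simp <;> first | nlinarith | (constructor <;> nlinarith)
    · exact absurd (Fin.ext (by omega)) huv
  set D : ℝ := Real.sqrt 32 with hD
  have hDpos : 0 < D := Real.sqrt_pos.2 (by norm_num)
  have F1 : ∀ u v, dist (z u) (z v) ≤ D := by
    intro u v
    by_cases huv : u = v
    · subst huv
      simpa using hDpos.le
    · have h := (hsq u v huv).1
      have h2 := Real.abs_le_sqrt h
      rwa [abs_of_nonneg dist_nonneg] at h2
  have F2 : ∀ u v, u ≠ v → A u v = false → dist (z u) (z v) = D := by
    intro u v huv hA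
    have h := (hsq u v huv).2 hA
    rw [hD, ← h, Real.sqrt_sq dist_nonneg]
  -- pigeonhole and the clique bound
  have key : ∀ f : EuclideanSpace ℝ (Fin 63) → Fin 64,
      ∃ u v, u ≠ v ∧ A u v = false ∧ f (z u) = f (z v) := by
    intro f
    obtain ⟨b, -, hb⟩ := Finset.exists_lt_card_fiber_of_mul_lt_card_of_maps_to
      (s := (Finset.univ : Finset (Fin 321))) (t := (Finset.univ : Finset (Fin 64)))
      (f := fun u => f (z u)) (n := 5) (fun _ _ => Finset.mem_univ _) (by simp)
    by_contra hcon
    have hcl := hclique (Finset.univ.filter (fun u => f (z u) = b)) (by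
      intro u hu v hv huv
      by_contra hA
      rw [Bool.not_eq_true] at hA
      rw [Finset.mem_filter] at hu hv
      exact hcon ⟨u, v, huv, hA, hu.2.trans hv.2.symm⟩)
    omega
  refine ⟨Finset.univ.image z, ?_, ?_⟩
  all_goals
    have hle : Metric.diam (↑(Finset.univ.image z) : Set (EuclideanSpace ℝ (Fin 63))) ≤ D := by
      apply Metric.diam_le_of_forall_dist_le hDpos.le
      intro p hp q hq
      rw [Finset.mem_coe, Finset.mem_image] at hp hq
      obtain ⟨u, -, rfl⟩ := hp
      obtain ⟨v, -, rfl⟩ := hq
      exact F1 u v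
    have hge : ∀ u v, u ≠ v → A u v = false →
        D ≤ Metric.diam (↑(Finset.univ.image z) : Set (EuclideanSpace ℝ (Fin 63))) := by
      intro u v huv hA
      rw [← F2 u v huv hA]
      exact Metric.dist_le_diam_of_mem (Finset.finite_toSet _).isBounded
        (Finset.mem_coe.2 (Finset.mem_image_of_mem z (Finset.mem_univ u)))
        (Finset.mem_coe.2 (Finset.mem_image_of_mem z (Finset.mem_univ v)))
  · obtain ⟨u, v, huv, hA, -⟩ := key (fun _ => 0)
    exact lt_of_lt_of_le hDpos (hge u v huv hA)
  · intro f
    obtain ⟨u, v, huv, hA, hf⟩ := key f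
    refine ⟨z u, Finset.mem_image_of_mem z (Finset.mem_univ u), z v,
      Finset.mem_image_of_mem z (Finset.mem_univ v), hf, ?_⟩
    rw [F2 u v huv hA]
    exact le_antisymm (hge u v huv hA) hle

end Vale.Agent.H19
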